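import Mathlib

open MeasureTheory Set

namespace Vale.Agent.H91.LAB

/-- The section of `S` by the hyperplane `y i = t`, as a subset of the space of the other
coordinates. -/
def slice {n : ℕ} (S : Set (Fin (n + 1) → ℝ)) (i : Fin (n + 1)) (t : ℝ) : Set (Fin n → ℝ) :=
  {k | (Fin.insertNth i t k : Fin (n + 1) → ℝ) ∈ S}

theorem lab_measurable_insertNth {n : ℕ} (i : Fin (n + 1)) (t : ℝ) :
    Measurable (fun k : Fin n → ℝ => (Fin.insertNth i t k : Fin (n + 1) → ℝ)) := by
  have h : (fun k : Fin n → ℝ => (Fin.insertNth i t k : Fin (n + 1) → ℝ))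
      = fun k => (MeasurableEquiv.piFinSuccAbove (fun _ => ℝ) i).symm (t, k) := by
    funext k
    rfl
  rw [h]
  exact (MeasurableEquiv.piFinSuccAbove (fun _ => ℝ) i).symm.measurable.comp
    (measurable_const.prodMk measurable_id)

theorem lab_slice_measurable {n : ℕ} {S : Set (Fin (n + 1) → ℝ)} (hS : MeasurableSet S)
    (i : Fin (n + 1)) (t : ℝ) : MeasurableSet (slice S i t) :=
  (lab_measurable_insertNth i t) hS

/-- Fubini in the coordinate `i`. -/
theorem lab_volume_eq_lintegral_slice {n : ℕ} {S : Set (Fin (n + 1) → ℝ)} (hS : MeasurableSet S)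
    (i : Fin (n + 1)) : volume S = ∫⁻ t, volume (slice S i t) := by
  have hmp := (volume_preserving_piFinSuccAbove (fun _ : Fin (n + 1) => ℝ) i).symm
  have h1 : volume ((MeasurableEquiv.piFinSuccAbove (fun _ : Fin (n + 1) => ℝ) i).symm ⁻¹' S)
      = volume S := hmp.measure_preimage hS.nullMeasurableSet
  rw [← h1, Measure.volume_eq_prod, Measure.prod_apply
    ((MeasurableEquiv.piFinSuccAbove (fun _ : Fin (n + 1) => ℝ) i).symm.measurable hS)]
  refine lintegral_congr fun t => ?_
  congr 1

/-- The region where the coordinate `i` strictly minimises `y j / x j` among the `j` with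
`0 < x j`. -/
def region {n : ℕ} (x : Fin (n + 1) → ℝ) (i : Fin (n + 1)) : Set (Fin (n + 1) → ℝ) :=
  {y | ∀ j, j ≠ i → 0 < x j → y i * x j < y j * x i}

theorem lab_region_disjoint {n : ℕ} (x : Fin (n + 1) → ℝ) {i j : Fin (n + 1)} (hij : i ≠ j)
    (hi : 0 < x i) (hj : 0 < x j) : Disjoint (region x i) (region x j) := by
  rw [Set.disjoint_left]
  intro y hyi hyj
  have h1 := hyi j (Ne.symm hij) hj
  have h2 := hyj i hij hi
  linarith

theorem lab_region_measurable {n : ℕ} (x : Fin (n + 1) → ℝ) (i : Fin (n + 1)) :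
    MeasurableSet (region x i) := by
  have h : region x i = ⋂ j, {y : Fin (n + 1) → ℝ | j ≠ i → 0 < x j → y i * x j < y j * x i} := by
    ext y
    simp [region]
  rw [h]
  refine MeasurableSet.iInter fun j => ?_
  by_cases hc : j ≠ i ∧ 0 < x j
  · have h2 : {y : Fin (n + 1) → ℝ | j ≠ i → 0 < x j → y i * x j < y j * x i}
        = {y : Fin (n + 1) → ℝ | y i * x j < y j * x i} := by
      ext y
      simp [hc.1, hc.2]
    rw [h2]
    exact measurableSet_lt ((measurable_pi_apply i).mul_const _) ((measurable_pi_apply j).mul_const _)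
  · have h2 : {y : Fin (n + 1) → ℝ | j ≠ i → 0 < x j → y i * x j < y j * x i} = Set.univ := by
      ext y
      simp only [Set.mem_ofPred_eq, Set.mem_univ, iff_true]
      intro h1 h3
      exact absurd ⟨h1, h3⟩ hc
    rw [h2]
    exact MeasurableSet.univ

/-- The slice of `S ∩ region x i` at height `t = s * x i` contains a homothetic copy (ratio
`1 - s`, centre `x` without its `i`-th coordinate) of the positive part of the base slice. -/
theorem lab_homothety_subset_slice {n : ℕ} {S : Set (Fin (n + 1) → ℝ)} (hconv : Convex ℝ S)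
    {x : Fin (n + 1) → ℝ} (hx : x ∈ S) (i : Fin (n + 1)) (hxi : 0 < x i) {t : ℝ}
    (ht0 : 0 ≤ t) (ht1 : t < x i) :
    (AffineMap.homothety (fun j => x (i.succAbove j)) (1 - t / x i)) ''
        (slice S i 0 ∩ {k | ∀ j, 0 < k j}) ⊆ slice (S ∩ region x i) i t := by
  rintro _ ⟨k, ⟨hk, hkpos⟩, rfl⟩
  have hs0 : 0 ≤ t / x i := div_nonneg ht0 hxi.le
  have hs1 : t / x i < 1 := (div_lt_one hxi).2 ht1
  have hts : t = t / x i * x i := by field_simp
  have key : (Fin.insertNth i t
      (AffineMap.homothety (fun j => x (i.succAbove j)) (1 - t / x i) k) : Fin (n + 1) → ℝ)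
      = (1 - t / x i) • (Fin.insertNth i (0 : ℝ) k : Fin (n + 1) → ℝ) + (t / x i) • x := by
    funext j
    refine Fin.succAboveCases i ?_ (fun j' => ?_) j
    · simp
      field_simp
    · simp [AffineMap.homothety_apply]
      ring
  refine ⟨?_, ?_⟩
  · show (Fin.insertNth i t _ : Fin (n + 1) → ℝ) ∈ S
    rw [key]
    exact hconv hk hx (by linarith) hs0 (by ring)
  · intro j hji hxj
    obtain ⟨j', rfl⟩ := Fin.exists_succAbove_eq hji
    simp only [Fin.insertNth_apply_same, Fin.insertNth_apply_succAbove]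
    simp only [AffineMap.homothety_apply, Pi.add_apply, Pi.smul_apply, vsub_eq_sub, Pi.sub_apply,
      smul_eq_mul, vadd_eq_add]
    have h1 := hkpos j'
    have h2 : 0 < (1 - t / x i) * k j' * x i :=
      mul_pos (mul_pos (by linarith) h1) hxi
    have h3 : t * x (i.succAbove j') = t / x i * x i * x (i.succAbove j') := by rw [← hts]
    rw [h3]
    nlinarith

theorem lab_volume_inter_pos {n : ℕ} (A : Set (Fin n → ℝ)) (hA : ∀ k ∈ A, ∀ j, 0 ≤ k j) :
    volume A ≤ volume (A ∩ {k | ∀ j, 0 < k j}) := by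
  have hsub : A ⊆ (A ∩ {k | ∀ j, 0 < k j}) ∪ ⋃ j, {k : Fin n → ℝ | k j = 0} := by
    intro k hk
    by_cases h : ∀ j, 0 < k j
    · exact Or.inl ⟨hk, h⟩
    · right
      push Not at h
      obtain ⟨j, hj⟩ := h
      exact mem_iUnion.2 ⟨j, le_antisymm hj (hA k hk j)⟩
  have hnull : volume (⋃ j, {k : Fin n → ℝ | k j = 0}) = 0 := by
    refine measure_iUnion_null fun j => ?_
    rw [volume_pi]
    exact Measure.pi_hyperplane _ j 0
  calc volume A ≤ volume ((A ∩ {k | ∀ j, 0 < k j}) ∪ ⋃ j, {k : Fin n → ℝ | k j = 0}) :=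
        measure_mono hsub
    _ ≤ volume (A ∩ {k | ∀ j, 0 < k j}) + volume (⋃ j, {k : Fin n → ℝ | k j = 0}) :=
        measure_union_le _ _
    _ = volume (A ∩ {k | ∀ j, 0 < k j}) := by rw [hnull, add_zero]

theorem lab_integral_pow (n : ℕ) {a : ℝ} (ha : 0 < a) :
    ∫ t in (0 : ℝ)..a, (1 - t / a) ^ n = a / (n + 1) := by
  have hint : IntervalIntegrable (fun t : ℝ => (1 - t / a) ^ n) volume 0 a :=
    (by fun_prop : Continuous fun t : ℝ => (1 - t / a) ^ n).intervalIntegrable 0 a
  have hderiv : ∀ t ∈ Set.uIcc 0 a,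
      HasDerivAt (fun t : ℝ => -(a / (n + 1)) * (1 - t / a) ^ (n + 1)) ((1 - t / a) ^ n) t := by
    intro t _
    have h1 : HasDerivAt (fun t : ℝ => 1 - t / a) (-(1 / a)) t := by
      simpa using ((hasDerivAt_id t).div_const a).const_sub 1
    have h2 := (h1.pow (n + 1)).const_mul (-(a / (n + 1)))
    have hn : (n : ℝ) + 1 ≠ 0 := by positivity
    have h3 : -(a / ((n : ℝ) + 1)) * (((n + 1 : ℕ) : ℝ) * (1 - t / a) ^ (n + 1 - 1) * -(1 / a))
        = (1 - t / a) ^ n := by
      simp only [Nat.add_sub_cancel]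
      push_cast
      field_simp
    rw [h3] at h2
    exact h2
  rw [intervalIntegral.integral_eq_sub_of_hasDerivAt hderiv hint]
  simp [ha.ne']

theorem lab_lintegral_pow (n : ℕ) {a : ℝ} (ha : 0 < a) :
    ∫⁻ t in Ico 0 a, ENNReal.ofReal ((1 - t / a) ^ n) = ENNReal.ofReal (a / (n + 1)) := by
  rw [restrict_Ico_eq_restrict_Ioc]
  have hint : IntervalIntegrable (fun t : ℝ => (1 - t / a) ^ n) volume 0 a :=
    (by fun_prop : Continuous fun t : ℝ => (1 - t / a) ^ n).intervalIntegrable 0 a
  have hnn : 0 ≤ᵐ[volume.restrict (Ioc 0 a)] fun t : ℝ => (1 - t / a) ^ n := by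
    filter_upwards [ae_restrict_mem measurableSet_Ioc] with t ht
    have h1 : 0 ≤ 1 - t / a := by
      have := (div_le_one ha).2 ht.2
      linarith
    exact pow_nonneg h1 n
  rw [← ofReal_integral_eq_lintegral_ofReal hint.1 hnn, ← intervalIntegral.integral_of_le ha.le,
    lab_integral_pow n ha]

/-- The part of `S` in `region x i` has volume at least `x i / (n + 1)` times the volume of the
base slice `{y i = 0}`. -/
theorem lab_cone_piece {n : ℕ} {S : Set (Fin (n + 1) → ℝ)} (hS : MeasurableSet S)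
    (hconv : Convex ℝ S) (hnn : ∀ y ∈ S, ∀ j, 0 ≤ y j) {x : Fin (n + 1) → ℝ} (hx : x ∈ S)
    (i : Fin (n + 1)) (hxi : 0 < x i) :
    ENNReal.ofReal (x i / (n + 1)) * volume (slice S i 0) ≤ volume (S ∩ region x i) := by
  have hm : MeasurableSet (S ∩ region x i) := hS.inter (lab_region_measurable x i)
  rw [lab_volume_eq_lintegral_slice hm i]
  have hbase : ∀ k ∈ slice S i 0, ∀ j, 0 ≤ k j := by
    intro k hk j
    have := hnn _ hk (i.succAbove j)
    simpa using this
  have hmeas : Measurable fun t : ℝ => ENNReal.ofReal ((1 - t / x i) ^ n) := by fun_prop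
  calc ENNReal.ofReal (x i / (n + 1)) * volume (slice S i 0)
      = (∫⁻ t in Ico 0 (x i), ENNReal.ofReal ((1 - t / x i) ^ n)) * volume (slice S i 0) := by
        rw [lab_lintegral_pow n hxi]
    _ = ∫⁻ t in Ico 0 (x i), ENNReal.ofReal ((1 - t / x i) ^ n) * volume (slice S i 0) := by
        rw [lintegral_mul_const _ hmeas]
    _ ≤ ∫⁻ t in Ico 0 (x i), volume (slice (S ∩ region x i) i t) := by
        refine setLIntegral_mono' measurableSet_Ico fun t ht => ?_
        have hr : 0 ≤ 1 - t / x i := by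
          have := (div_le_one hxi).2 ht.2.le
          linarith
        calc ENNReal.ofReal ((1 - t / x i) ^ n) * volume (slice S i 0)
            ≤ ENNReal.ofReal ((1 - t / x i) ^ n)
                * volume (slice S i 0 ∩ {k | ∀ j, 0 < k j}) := by
              exact mul_le_mul' le_rfl (lab_volume_inter_pos _ hbase)
          _ = volume ((AffineMap.homothety (fun j => x (i.succAbove j)) (1 - t / x i)) ''
                (slice S i 0 ∩ {k | ∀ j, 0 < k j})) := by
              rw [Measure.addHaar_image_homothety, Module.finrank_fin_fun,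
                abs_of_nonneg (pow_nonneg hr n)]
          _ ≤ volume (slice (S ∩ region x i) i t) :=
              measure_mono (lab_homothety_subset_slice hconv hx i hxi ht.1 ht.2)
    _ ≤ ∫⁻ t, volume (slice (S ∩ region x i) i t) := setLIntegral_le_lintegral _ _

/-- **Cone inequality.** For a measurable convex set `S` in the closed positive orthant of
`ℝ^(n+1)` and a point `x ∈ S`, the pyramids with apex `x` over the coordinate sections
`S ∩ {y i = 0}` fit into `S` without overlap:
`∑ i, x i * vol_n (S ∩ {y i = 0}) ≤ (n + 1) * vol_(n+1) S`. -/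
theorem cone_ineq_slice {n : ℕ} (S : Set (Fin (n + 1) → ℝ)) (hS : MeasurableSet S)
    (hconv : Convex ℝ S) (hnn : ∀ y ∈ S, ∀ j, 0 ≤ y j) (x : Fin (n + 1) → ℝ) (hx : x ∈ S) :
    ∑ i, ENNReal.ofReal (x i) * volume (slice S i 0) ≤ ((n + 1 : ℕ) : ENNReal) * volume S := by
  classical
  set I : Finset (Fin (n + 1)) := Finset.univ.filter fun i => 0 < x i with hI
  have hdisj : (I : Set (Fin (n + 1))).PairwiseDisjoint fun i => S ∩ region x i := by
    intro i hi j hj hij
    have hi' : 0 < x i := (Finset.mem_filter.1 hi).2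
    have hj' : 0 < x j := (Finset.mem_filter.1 hj).2
    exact (lab_region_disjoint x hij hi' hj').mono inter_subset_right inter_subset_right
  have hunion : ∑ i ∈ I, volume (S ∩ region x i) ≤ volume S := by
    rw [← measure_biUnion_finset hdisj (fun i _ => hS.inter (lab_region_measurable x i))]
    exact measure_mono (iUnion₂_subset fun i _ => inter_subset_left)
  calc ∑ i, ENNReal.ofReal (x i) * volume (slice S i 0)
      = ∑ i ∈ I, ENNReal.ofReal (x i) * volume (slice S i 0) := by
        symm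
        apply Finset.sum_subset (Finset.subset_univ _)
        intro i _ hi
        have h0 : ¬ 0 < x i := fun h => hi (Finset.mem_filter.2 ⟨Finset.mem_univ _, h⟩)
        rw [ENNReal.ofReal_of_nonpos (not_lt.1 h0), zero_mul]
    _ ≤ ∑ i ∈ I, ((n + 1 : ℕ) : ENNReal) * volume (S ∩ region x i) := by
        refine Finset.sum_le_sum fun i hi => ?_
        have hi' : 0 < x i := (Finset.mem_filter.1 hi).2
        have h1 := lab_cone_piece hS hconv hnn hx i hi'
        have h2 : ENNReal.ofReal (x i)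
            = ((n + 1 : ℕ) : ENNReal) * ENNReal.ofReal (x i / (n + 1)) := by
          rw [← ENNReal.ofReal_natCast, ← ENNReal.ofReal_mul (by positivity)]
          congr 1
          push_cast
          field_simp
        rw [h2, mul_assoc]
        exact mul_le_mul' le_rfl h1
    _ = ((n + 1 : ℕ) : ENNReal) * ∑ i ∈ I, volume (S ∩ region x i) := by rw [Finset.mul_sum]
    _ ≤ ((n + 1 : ℕ) : ENNReal) * volume S := mul_le_mul' le_rfl hunion

/-- **Cone inequality**, with the sections written out (no auxiliary definition in the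
statement). -/
theorem cone_ineq {n : ℕ} (S : Set (Fin (n + 1) → ℝ)) (hS : MeasurableSet S)
    (hconv : Convex ℝ S) (hnn : ∀ y ∈ S, ∀ j, 0 ≤ y j) (x : Fin (n + 1) → ℝ) (hx : x ∈ S) :
    ∑ i, ENNReal.ofReal (x i)
        * volume {k : Fin n → ℝ | (Fin.insertNth i (0 : ℝ) k : Fin (n + 1) → ℝ) ∈ S}
      ≤ ((n + 1 : ℕ) : ENNReal) * volume S :=
  cone_ineq_slice S hS hconv hnn x hx

/-- Real-valued form of the cone inequality, for sets of finite volume with sections of finite
volume. -/
theorem cone_ineq_real {n : ℕ} (S : Set (Fin (n + 1) → ℝ)) (hS : MeasurableSet S)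
    (hconv : Convex ℝ S) (hnn : ∀ y ∈ S, ∀ j, 0 ≤ y j) (hfin : volume S ≠ ⊤)
    (hfin' : ∀ i, volume {k : Fin n → ℝ | (Fin.insertNth i (0 : ℝ) k : Fin (n + 1) → ℝ) ∈ S} ≠ ⊤)
    (x : Fin (n + 1) → ℝ) (hx : x ∈ S) :
    ∑ i, x i * (volume {k : Fin n → ℝ | (Fin.insertNth i (0 : ℝ) k : Fin (n + 1) → ℝ) ∈ S}).toReal
      ≤ ((n : ℝ) + 1) * (volume S).toReal := by
  have h := cone_ineq S hS hconv hnn x hx
  have hne : ((n + 1 : ℕ) : ENNReal) * volume S ≠ ⊤ :=
    ENNReal.mul_ne_top (ENNReal.natCast_ne_top _) hfin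
  have h2 := ENNReal.toReal_mono hne h
  rw [ENNReal.toReal_sum (fun i _ => ENNReal.mul_ne_top ENNReal.ofReal_ne_top (hfin' i)),
    ENNReal.toReal_mul, ENNReal.toReal_natCast] at h2
  have h3 : ∀ i, (ENNReal.ofReal (x i)
        * volume {k : Fin n → ℝ | (Fin.insertNth i (0 : ℝ) k : Fin (n + 1) → ℝ) ∈ S}).toReal
      = x i * (volume {k : Fin n → ℝ |
          (Fin.insertNth i (0 : ℝ) k : Fin (n + 1) → ℝ) ∈ S}).toReal := by
    intro i
    rw [ENNReal.toReal_mul, ENNReal.toReal_ofReal (hnn x hx i)]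
  simp only [h3] at h2
  push_cast at h2
  exact h2

end Vale.Agent.H91.LAB
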